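import Crest.Agent.X212.Geo46.Api
import Crest.Agent.R096.Pb1_715
import Crest.Agent.R096.Bd1_416

/-!
# X212 / T layer (helper52): simplices are PL balls, subcomplexes are complexes of balls (`CxStmt`)
-/

set_option autoImplicit false
set_option linter.unusedSectionVars false

open Set Metric Topology Module
open scoped Classical

namespace Crest.Agent.X212.Gcx52

open Crest.Agent.R096.Ce_537 Crest.Agent.R096.Bd_416 Crest.Agent.X212.Geo46
open Crest.Agent.X212.Tw9 (Tri)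

/-- the standard simplex is a PL ball -/
theorem isBall_std (κ : Type) [Fintype κ] [Nonempty κ] :
    IsBall (Fintype.card κ - 1) (stdSimplex ℝ κ) {w | w ∈ stdSimplex ℝ κ ∧ ∃ u, w u = 0} := by
  have hn : (0 : ℝ) < Fintype.card κ := by exact_mod_cast Fintype.card_pos
  let S : (κ → ℝ) →ₗ[ℝ] ℝ := ∑ u, LinearMap.proj u
  have hS : ∀ w, S w = ∑ u, w u := fun w => by simp [S]
  have hr : finrank ℝ (LinearMap.ker S) = Fintype.card κ - 1 := by
    have h := S.finrank_range_add_finrank_ker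
    have h1 : Function.Surjective S := fun t => ⟨fun _ => t / Fintype.card κ, by
      rw [hS, Finset.sum_const, Finset.card_univ, nsmul_eq_mul, mul_div_cancel₀ _ hn.ne']⟩
    rw [LinearMap.range_eq_top.2 h1, finrank_top, finrank_self, finrank_fintype_fun_eq_card] at h
    omega
  have k : ∀ (w : κ → ℝ) (u : κ),
      (-(Fintype.card κ : ℝ) • ContinuousLinearMap.proj (R := ℝ) (φ := fun _ : κ => ℝ) u)
        (w - fun _ => (Fintype.card κ : ℝ)⁻¹) = 1 - Fintype.card κ * w u := fun w u => by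
    simp only [smul_apply, ContinuousLinearMap.proj_apply, Pi.sub_apply, smul_eq_mul]
    field_simp
    ring
  rw [← hr]
  refine R096.Pb_715.isBall_core (fun _ => (Fintype.card κ : ℝ)⁻¹) _ (Finset.univ.image fun u =>
    -(Fintype.card κ : ℝ) • ContinuousLinearMap.proj (R := ℝ) (φ := fun _ : κ => ℝ) u)
    (fun w => ?_) (fun w => ?_) (isCompact_stdSimplex ℝ κ).isBounded
  · simp only [Finset.forall_mem_image, Finset.mem_univ, forall_true_left, k, LinearMap.mem_ker, hS,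
      Pi.sub_apply, Finset.sum_sub_distrib, Finset.sum_const, Finset.card_univ, nsmul_eq_mul,
      mul_inv_cancel₀ hn.ne', sub_eq_zero, sub_le_self_iff, mul_nonneg_iff_of_pos_left hn]
    exact and_comm
  · simp only [Finset.exists_mem_image, Finset.mem_univ, true_and, k, sub_eq_self, mul_eq_zero,
      hn.ne', false_or, mem_ofPred_eq]

variable {E : Type} [NormedAddCommGroup E] [NormedSpace ℝ E] {ι : Type} [Fintype ι] {X : Set E}
  (T : Tri ι X)

/-- extension by zero -/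
noncomputable def ex (s : Finset ι) (w : s → ℝ) (u : ι) : ℝ := if h : u ∈ s then w ⟨u, h⟩ else 0

theorem comb_ex {s : Finset ι} (hs : s ∈ simp T) {w : s → ℝ} (hw : w ∈ stdSimplex ℝ s) :
    ∑ u, ex s w u • T.pt u ∈ X ∧ ∀ u', T.be u' (∑ u, ex s w u • T.pt u) = ex s w u' := by
  refine comb T hs _ (fun u => ?_) ?_ fun u hu => dif_neg hu
  · unfold ex
    split_ifs
    exacts [hw.1 _, le_rfl]
  · rw [← Finset.sum_subset (f := ex s w) s.subset_univ fun u _ hu => dif_neg hu, ← Finset.sum_coe_sort, ← hw.2]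
    exact Finset.sum_congr rfl fun u _ => dif_pos u.2

/-- barycentric coordinates of a closed simplex -/
noncomputable def cellE {s : Finset ι} (hs : s ∈ simp T) : PLEquiv (stdSimplex ℝ s) (cell T s) where
  f := fun w => ∑ u, ex s w u • T.pt u
  g := fun y u => T.be u y
  pf := pl_sum _ fun u _ => by
    unfold ex
    split_ifs with h
    · exact pl_clm (pl_apply (plOn_id _) (⟨u, h⟩ : s)) ((ContinuousLinearMap.id ℝ ℝ).smulRight (T.pt u))
    · exact plOn_const _ _
  pg := pl_pi fun u => (T.pl u).mono (cell_sub T _)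
  mf := fun w hw => ⟨(comb_ex T hs hw).1, fun u hu => by
    rw [mem_supp, (comb_ex T hs hw).2] at hu
    by_contra h
    exact hu.ne' (dif_neg h)⟩
  mg := fun y hy => ⟨fun u => T.nn y hy.1 u, by
    rw [Finset.sum_coe_sort s fun u => T.be u y, ← T.sum y hy.1]
    exact Finset.sum_subset s.subset_univ fun u _ hu => (not_mem_supp T hy.1).1 fun h => hu (hy.2 u h)⟩
  li := fun w hw => funext fun u => ((comb_ex T hs hw).2 u).trans (dif_pos u.2)
  ri := fun y hy => (Finset.sum_congr rfl fun u _ => by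
    unfold ex
    split_ifs with h
    · rfl
    · rw [(not_mem_supp T hy.1).1 fun h' => h (hy.2 u h')]).trans (T.rep y hy.1)

/-- **closed simplices are PL balls** -/
theorem isBall_cell {s : Finset ι} (hs : s ∈ simp T) :
    IsBall (s.card - 1) (cell T s) {y | y ∈ X ∧ supp T y ⊂ s} := by
  have : Nonempty s := hs.1.to_subtype
  have h := (isBall_std s).map (cellE T hs)
  rw [Fintype.card_coe] at h
  convert h using 1
  ext y
  constructor
  · rintro ⟨hy, h1⟩
    obtain ⟨u, hu, h2⟩ := Finset.exists_of_ssubset h1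
    have h3 : y ∈ cell T s := ⟨hy, h1.1⟩
    exact ⟨_, ⟨(cellE T hs).mg h3, ⟨u, hu⟩, (not_mem_supp T hy).1 h2⟩, (cellE T hs).ri y h3⟩
  · rintro ⟨w, ⟨hw, u, hu⟩, rfl⟩
    have h3 := (cellE T hs).mf hw
    refine ⟨h3.1, (Finset.ssubset_iff_of_subset h3.2).2 ⟨u, u.2, (not_mem_supp T h3.1).2 ?_⟩⟩
    exact (congrFun ((cellE T hs).li w hw) u).trans hu

variable {T} {𝒮 : Set (Finset ι)}

theorem below (hd : ∀ s ∈ 𝒮, ∀ t : Finset ι, t ⊆ s → t.Nonempty → t ∈ 𝒮) (s : 𝒮) :
    ⋃ j ∈ {j : 𝒮 | j < s}, cell T j.1 = {y | y ∈ X ∧ supp T y ⊂ s.1} := by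
  ext y
  simp only [mem_iUnion, mem_ofPred_eq]
  exact ⟨fun ⟨j, hj, hy⟩ => ⟨hy.1, lt_of_le_of_lt (show supp T y ⊆ j.1 from hy.2) hj⟩,
    fun ⟨hy, h⟩ => ⟨⟨_, hd _ s.2 _ h.1 (supp_ne T hy)⟩, h, self_mem_cell T hy⟩⟩

/-- the open cells are the points with given support -/
theorem opn_iff (hd : ∀ s ∈ 𝒮, ∀ t : Finset ι, t ⊆ s → t.Nonempty → t ∈ 𝒮) {s : 𝒮} {y : E} :
    Opn (fun s : 𝒮 => cell T s.1) s y ↔ y ∈ X ∧ supp T y = s.1 := by
  refine ⟨fun h => ⟨h.1.1, ?_⟩, fun h => ⟨⟨h.1, h.2.le⟩, fun j hj hy => ?_⟩⟩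
  · by_contra h1
    have h2 : supp T y ⊆ s.1 := h.1.2
    exact h.2 ⟨_, hd _ s.2 _ h2 (supp_ne T h.1.1)⟩ (lt_of_le_of_ne h2 fun e => h1 (congrArg Subtype.val e))
      (self_mem_cell T h.1.1)
  · exact hj.not_ge (show s.1 ⊆ j.1 from h.2 ▸ hy.2)

/-- **(CX)** -/
theorem cxStmt : CxStmt := by
  intro E _ _ _ ι _ X T 𝒮 hS hd
  refine ⟨fun s => ?_, fun i j h => ?_, fun i j y hi hj => ?_, fun s y hy => ?_, fun y hy => ?_,
    fun _ _ => ⟨1, one_pos, toFinite _⟩⟩
  · rw [below hd]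
    exact isBall_cell T (hS s.2)
  · have h1 : j.1.card < i.1.card := Finset.card_lt_card h
    have h2 := (hS j.2).1.card_pos
    omega
  · exact Subtype.ext (((opn_iff hd).1 hi).2.symm.trans ((opn_iff hd).1 hj).2)
  · exact ⟨hy.1, hd _ s.2 _ hy.2 (supp_ne T hy.1)⟩
  · exact ⟨⟨_, hy.2⟩, self_mem_cell T hy.1⟩

end Crest.Agent.X212.Gcx52
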