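import Crest.Agent.X212.Geo46.Defs

/-!
# X212 / T layer (helper52): pushing off the boundary (`PushStmt`)
-/

set_option autoImplicit false

open Set Metric Topology Filter
open scoped Classical

namespace Crest.Agent.X212.Gcx52

open Crest.Agent.R096.Ce_537 Crest.Agent.X212.Geo46
open Crest.Agent.X212.Prd34 (V P up fl Mf)

/-- a homotopy of `M` that starts at the identity, never moves a point into `dM` and moves `A` off `dM` -/
def Psh (M dM A : Set V) : Prop := ∃ p : ℝ × V → V, ContinuousOn p (Icc 0 1 ×ˢ univ) ∧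
  (∀ y, p (0, y) = y) ∧ ∀ s ∈ Icc (0 : ℝ) 1, ∀ y ∈ M, p (s, y) ∈ M ∧
    (p (s, y) ∈ dM → p (s, y) = y ∧ (0 < s → y ∉ A))

variable {M dM A A' : Set V}

theorem Psh.mono (h : Psh M dM A) (h' : A' ⊆ A) : Psh M dM A' := by
  obtain ⟨p, h1, h2, h3⟩ := h
  exact ⟨p, h1, h2, fun s hs y hy => ⟨(h3 s hs y hy).1, fun k =>
    ⟨((h3 s hs y hy).2 k).1, fun s0 a => ((h3 s hs y hy).2 k).2 s0 (h' a)⟩⟩⟩

theorem psh_compl (M dM : Set V) : Psh M dM dMᶜ :=
  ⟨Prod.snd, continuousOn_snd, fun _ => rfl, fun _ _ _ hy => ⟨hy, fun k => ⟨rfl, fun _ a => a k⟩⟩⟩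

theorem Psh.union (h : Psh M dM A) (h' : Psh M dM A') : Psh M dM (A ∪ A') := by
  obtain ⟨p, h1, h2, h3⟩ := h
  obtain ⟨q, k1, k2, k3⟩ := h'
  refine ⟨fun z => q (z.1, p z), k1.comp (continuousOn_fst.prodMk h1) fun z hz => ⟨hz.1, trivial⟩,
    fun y => by simp only [h2, k2], fun s hs y hy => ⟨(k3 s hs _ (h3 s hs y hy).1).1, fun k => ?_⟩⟩
  obtain ⟨a1, a2⟩ := (k3 s hs _ (h3 s hs y hy).1).2 k
  obtain ⟨b1, b2⟩ := (h3 s hs y hy).2 (a1 ▸ k)
  exact ⟨a1.trans b1, fun s0 a => a.elim (b2 s0) (b1 ▸ a2 s0)⟩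

/-- the push in the model cube -/
noncomputable def mv (r s : ℝ) (z : V) : V := z + (s * max 0 (r - ‖z‖)) • Pi.single 2 1

theorem mv_two (r s : ℝ) (z : V) : mv r s z 2 = z 2 + s * max 0 (r - ‖z‖) := by simp [mv]

theorem mv_eq {r s : ℝ} {z : V} (h : s * max 0 (r - ‖z‖) = 0) : mv r s z = z := by simp [mv, h]

theorem mv_mem {r s : ℝ} (hr : r ≤ 1) (hs : s ∈ Icc (0 : ℝ) 1) {z : V} (hz : z ∈ cube 3) :
    mv r s z ∈ cube 3 := by
  rw [mem_closedBall_zero_iff] at hz ⊢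
  refine (norm_add_le _ _).trans ?_
  rw [norm_smul, Pi.norm_single, norm_one, mul_one,
    Real.norm_of_nonneg (mul_nonneg hs.1 (le_max_left _ _))]
  have h1 := mul_le_of_le_one_left (le_max_left 0 (r - ‖z‖)) hs.2
  have h2 : max 0 (r - ‖z‖) ≤ 1 - ‖z‖ := max_le (by linarith) (by linarith)
  linarith

theorem psh_loc (h : Mf M dM) {x : V} (hx : x ∈ M) : ∃ U ∈ 𝓝 x, Psh M dM U := by
  by_cases hd : x ∈ dM
  swap
  · exact ⟨_, h.2.1.mem_nhds ⟨hx, hd⟩, (psh_compl M dM).mono fun _ k => k.2⟩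
  obtain ⟨B, e, e0, hB, hM, hD⟩ := h.2.2 x hd
  have c0 : (0 : V) ∈ cube 3 := mem_closedBall_self zero_le_one
  have h1 : e.f ⁻¹' interior B ∈ 𝓝 (0 : V) :=
    ((e.pf.1 0 c0).continuousAt (closedBall_mem_nhds 0 one_pos)).preimage_mem_nhds
      (e0 ▸ interior_mem_nhds.2 hB)
  obtain ⟨r, r0, hr⟩ := nhds_basis_closedBall.mem_iff.1 (inter_mem h1 (closedBall_mem_nhds 0 one_pos))
  have r1 : r ≤ 1 := by
    have : (Pi.single 2 r : V) ∈ closedBall (0 : V) r := by simp [Pi.norm_single, abs_of_pos r0]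
    simpa [Pi.norm_single, abs_of_pos r0] using (hr this).2
  have hK : IsClosed (e.f '' closedBall 0 r) :=
    ((isCompact_closedBall 0 r).image_of_continuousOn (e.pf.1.mono fun _ k => (hr k).2)).isClosed
  have g0 : e.g x = 0 := e0 ▸ e.li 0 c0
  have hU : {y | y ∈ B ∧ ‖e.g y‖ < r} ∈ 𝓝 x := inter_mem hB
    (((e.pg.1 x (mem_of_mem_nhds hB)).continuousAt hB).norm.eventually (gt_mem_nhds (by simp [g0, r0])))
  refine ⟨_, hU, fun z => if z.2 ∈ B then e.f (mv r z.1 (e.g z.2)) else z.2, fun z hz => ?_,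
    fun y => ?_, fun s hs y hy => ?_⟩
  · by_cases k : z.2 ∈ interior B
    · have k1 : ContinuousOn (fun z : ℝ × V => e.f (mv r z.1 (e.g z.2))) (Icc 0 1 ×ˢ B) := by
        have k2 : ContinuousOn (fun z : ℝ × V => e.g z.2) (Icc 0 1 ×ˢ B) :=
          e.pg.1.comp continuousOn_snd fun _ a => a.2
        refine e.pf.1.comp (k2.add ((continuousOn_fst.mul (continuousOn_const.sup
          (continuousOn_const.sub k2.norm))).smul continuousOn_const)) fun w hw => ?_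
        exact mv_mem r1 hw.1 (e.mg hw.2)
      have k3 : Icc (0 : ℝ) 1 ×ˢ B ∈ 𝓝[Icc 0 1 ×ˢ univ] z := by
        filter_upwards [self_mem_nhdsWithin, mem_nhdsWithin_of_mem_nhds
          (continuousAt_snd.preimage_mem_nhds (mem_interior_iff_mem_nhds.1 k))] with w a b using ⟨a.1, b⟩
      exact ((k1 z ⟨hz.1, interior_subset k⟩).congr (fun w hw => if_pos hw.2)
        (if_pos (interior_subset k))).mono_of_mem_nhdsWithin k3
    · have k1 : ∀ w : ℝ × V, w.2 ∉ e.f '' closedBall 0 r →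
          (if w.2 ∈ B then e.f (mv r w.1 (e.g w.2)) else w.2) = w.2 := fun w hw => by
        split_ifs with a
        · rw [mv_eq, e.ri _ a]
          rw [max_eq_left, mul_zero]
          exact sub_nonpos.2 (le_of_not_ge fun b => hw ⟨_, mem_closedBall_zero_iff.2 b, e.ri _ a⟩)
        · rfl
      have k2 : z.2 ∉ e.f '' closedBall 0 r := fun ⟨w, a, b⟩ => k (b ▸ (hr a).1)
      exact (continuousAt_snd.congr (eventually_of_mem (continuousAt_snd.preimage_mem_nhds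
        (hK.isOpen_compl.mem_nhds k2)) fun w hw => (k1 w hw).symm)).continuousWithinAt
  · dsimp only
    split_ifs with a
    · rw [mv_eq (zero_mul _), e.ri _ a]
    · rfl
  · dsimp only
    split_ifs with a
    swap
    · exact ⟨hy, fun _ => ⟨rfl, fun _ b => a b.1⟩⟩
    obtain ⟨z, ⟨hz, z2⟩, rfl⟩ := hM.le ⟨a, hy⟩
    have k0 := mul_nonneg hs.1 (le_max_left 0 (r - ‖z‖))
    have k1 := mv_mem r1 hs hz
    rw [e.li z hz]
    refine ⟨(hM.ge ⟨_, ⟨k1, show 0 ≤ mv r s z 2 from mv_two r s z ▸ add_nonneg z2 k0⟩, rfl⟩).2,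
      fun k => ?_⟩
    obtain ⟨w, ⟨hw, w2⟩, k2⟩ := hD.le ⟨e.mf k1, k⟩
    have k3 : z 2 + s * max 0 (r - ‖z‖) = 0 := by rw [← mv_two, ← e.injOn hw k1 k2]; exact w2
    have k4 : s * max 0 (r - ‖z‖) = 0 := le_antisymm (by linarith [show 0 ≤ z 2 from z2]) k0
    refine ⟨by rw [mv_eq k4], fun s0 b => ?_⟩
    have k5 : ‖z‖ < r := e.li z hz ▸ b.2
    exact (mul_pos s0 (lt_max_of_lt_right (sub_pos.2 k5))).ne' k4

theorem psh_of_isCompact (h : Mf M dM) (hA : IsCompact A) (hs : A ⊆ M) : Psh M dM A :=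
  hA.induction_on ((psh_compl M dM).mono (empty_subset _)) (fun _ _ a b => b.mono a)
    (fun _ _ => Psh.union) fun _ hx =>
      let ⟨U, a, b⟩ := psh_loc h (hs hx)
      ⟨U, mem_nhdsWithin_of_mem_nhds a, b⟩

/-- **(PUSH)** -/
theorem pushStmt : PushStmt := by
  intro M dM f h hf hm
  obtain ⟨p, h1, h2, h3⟩ := psh_of_isCompact h
    ((isCompact_closedBall 0 1).image_of_continuousOn hf) hm.image_subset
  have k : ∀ x ∈ cube 2, 1 - ‖x‖ ∈ Icc (0 : ℝ) 1 := fun x hx =>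
    ⟨sub_nonneg.2 (mem_closedBall_zero_iff.1 hx), sub_le_self _ (norm_nonneg _)⟩
  refine ⟨fun x => p (1 - ‖x‖, f x), h1.comp ((continuousOn_const.sub continuous_norm.continuousOn).prodMk hf)
    fun x hx => ⟨k x hx, trivial⟩, fun x hx => (h3 _ (k x hx) _ (hm hx)).1, fun x hx => ?_,
    fun x hx hd => ?_⟩
  · simp only [mem_sphere_zero_iff_norm.1 hx, sub_self, h2]
  · by_contra a
    refine ((h3 _ (k x hx) _ (hm hx)).2 hd).2 ((k x hx).1.lt_of_ne fun b => a ?_) ⟨x, hx, rfl⟩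
    exact mem_sphere_zero_iff_norm.2 (by linarith)

end Crest.Agent.X212.Gcx52
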